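import Vale.Agent.P144D.DefsB

/-!
Weights of a region and strings: the small lemmas.
-/

namespace Vale.Agent.P144Z

open Finset Matrix

set_option linter.unusedSectionVars false

section C
variable {M : ℕ} [NeZero M]

theorem Reg.isP (R : Reg M) : IsP R.pw := fun e => by
  unfold Reg.pw
  split_ifs <;> simp

theorem IsP.isW {P : Gauge M} (h : IsP P) : IsW P := fun e => by
  have := two_le_tT
  rcases h e with h | h | h
  · exact Or.inl h
  · exact Or.inr (Or.inl (by rw [h, abs_one]))
  · exact Or.inr (Or.inr (by rw [h, abs_of_nonneg (by linarith)]))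

theorem IsP.mul {P B : Gauge M} (h : IsP P) (hB : IsSign B) : IsW (P * B) := fun e => by
  have h1 : |B e| = 1 := C.abs_sign hB e
  rw [Pi.mul_apply, abs_mul, h1, mul_one]
  exact (h.isW e).imp_left fun h => by rw [h, zero_mul]

theorem flux_mul (A B : Gauge M) (f : Tor M) : flux (A * B) f = flux A f * flux B f := by
  unfold flux
  simp only [Pi.mul_apply]
  ring

theorem str_one (P : Gauge M) (r : ℕ) : Str P 1 r := by
  have h : ∀ f : Tor M, flux (1 : Gauge M) f ≠ -1 := fun f => by
    simp only [flux, Pi.one_apply]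
    norm_num
  exact ⟨fun _ => Or.inl rfl, fun f hf => absurd hf (h f), fun f _ hf => absurd hf (h f)⟩

theorem Str.mono {P B : Gauge M} {r r' : ℕ} (h : Str P B r) (hr : r' ≤ r) : Str P B r' :=
  ⟨h.sign, fun f hf => (h.fl f hf).imp (fun h e he => h e (he.trans hr))
    fun h e he => h e (he.trans hr), fun f f' h1 h2 h3 => hr.trans_lt (h.sep f f' h1 h2 h3)⟩

namespace DC

theorem isP_nonneg {P : Gauge M} (h : IsP P) (e : Tor M × Fin 2) : 0 ≤ P e := by
  have := two_le_tT
  rcases h e with h | h | h <;> rw [h] <;> linarith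

theorem flux_nonneg {P : Gauge M} (h : IsP P) (f : Tor M) : 0 ≤ flux P f :=
  mul_nonneg (mul_nonneg (mul_nonneg (isP_nonneg h _) (isP_nonneg h _)) (isP_nonneg h _))
    (isP_nonneg h _)

theorem flux_sign {B : Gauge M} (h : IsSign B) (f : Tor M) : flux B f = 1 ∨ flux B f = -1 := by
  unfold flux
  rcases h (f, 0) with a | a <;> rcases h (f + uv M 0, 1) with b | b <;>
    rcases h (f + uv M 1, 0) with c | c <;> rcases h (f, 1) with d | d <;> rw [a, b, c, d] <;>
    norm_num

/-- The flux of the weights is one if the edges nearby have weight one. -/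
theorem flux_one {P : Gauge M} {f z : Tor M} {r : ℕ} (h : ∀ e, tdist e.1 z ≤ r + 1 → P e = 1)
    (hf : tdist f z ≤ r) : flux P f = 1 := by
  have h1 : ∀ i, tdist (f + uv M i) z ≤ r + 1 := fun i => (E3.near_add i).trans (by omega)
  rw [flux, h (f, 0) (by dsimp only; omega), h (f + uv M 0, 1) (h1 0), h (f + uv M 1, 0) (h1 1),
    h (f, 1) (by dsimp only; omega)]
  norm_num

/-- In the free case the faces with flux one have edges of weight one. -/
theorem in_of_flux {R : Reg M} (hf : R.fr = true) {f : Tor M} (h : flux R.pw f = 1) (i : Fin 2) :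
    f ∈ R.In ∧ oth (f, i) ∈ R.In := by
  have h1 := W.face_sign R.isP.isW (f := f) (by rw [h, abs_one])
  have h2 : |R.pw (f, i)| = 1 := by
    fin_cases i
    · exact h1.1
    · exact h1.2.2.2
  by_contra h3
  have := two_le_tT
  rw [Reg.pw, if_pos hf, if_neg h3, abs_of_nonneg (by linarith)] at h2
  linarith

theorem near_oth (e : Tor M × Fin 2) (z : Tor M) : tdist (oth e) z ≤ tdist e.1 z + 1 :=
  E3.near_sub _

end DC

end C

end Vale.Agent.P144Z
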