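import Vale.Agent.P144D.Defs
import Vale.Agent.P144D.C.Basic
import Vale.Agent.P144Z.R5.Geom

/-!
The correction of a region is admissible.
-/

namespace Vale.Agent.P144Z

open Finset Matrix

set_option linter.unusedSectionVars false

variable {M : ℕ} [NeZero M]

namespace DC

/-- Sums of terms with given supports. -/
theorem le_terms {I : Type} (t : Finset I) (p : I → Prop) [DecidablePred p]
    (s : I → Finset (Tor M)) (w : I → ℝ) (a : I → (Tor M × Fin 2 → Bool) → ℝ) {R : ℕ} {γ : ℝ}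
    (ha : ∀ i ∈ t, ∀ n, |a i n| ≤ w i) (hs : ∀ i ∈ t, ∀ x ∈ s i, ∀ y ∈ s i, tdist x y ≤ R)
    (hN : ∀ x, ∑ i ∈ t.filter (fun i => x ∈ s i), w i ≤ γ) {c : Cor M}
    (hc : ∀ X n, c X n = ∑ i ∈ t.filter (fun i => p i ∧ s i = X), a i n) : c.Le R γ := by
  have hw : ∀ i ∈ t, 0 ≤ w i := fun i hi => (abs_nonneg _).trans (ha i hi fun _ => false)
  refine ⟨fun X => ∑ i ∈ t.filter (fun i => s i = X), w i, fun X n => ?_, fun X hX => ?_,
    fun x => ?_⟩
  · rw [hc]
    refine (abs_sum_le_sum_abs _ _).trans ((sum_le_sum fun i hi => ha i (mem_filter.1 hi).1 n).trans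
      (sum_le_sum_of_subset_of_nonneg (fun i hi => ?_) fun i hi _ => hw i (mem_filter.1 hi).1))
    exact mem_filter.2 ⟨(mem_filter.1 hi).1, (mem_filter.1 hi).2.2⟩
  · obtain ⟨i, hi, -⟩ := exists_ne_zero_of_sum_ne_zero hX
    obtain ⟨hi', rfl⟩ := mem_filter.1 hi
    exact hs i hi'
  · refine le_trans (le_of_eq ?_) (hN x)
    rw [← sum_fiberwise_of_maps_to (s := t.filter fun i => x ∈ s i)
      (t := univ.filter fun X : Finset (Tor M) => x ∈ X) (g := s)
      (fun i hi => mem_filter.2 ⟨mem_univ _, (mem_filter.1 hi).2⟩)]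
    refine sum_congr rfl fun X hX => sum_congr ?_ fun _ _ => rfl
    ext i
    simp only [mem_filter, and_assoc, and_congr_right_iff, iff_and_self]
    rintro - rfl
    exact (mem_filter.1 hX).2

theorem le_zero (R : ℕ) {γ : ℝ} (h : 0 ≤ γ) : Cor.Le (0 : Cor M) R γ :=
  ⟨0, fun _ _ => by simp, fun _ h => absurd rfl h, fun _ => by simpa using h⟩

theorem abs_log_le {x : ℝ} (h1 : 1 / 4 ≤ x) : |Real.log (tc / x)| ≤ 4 * |x - tc| := by
  have h2 : (1 / 4 : ℝ) ≤ tc := by
    have h : (5 / 4 : ℝ) ≤ √2 := Real.le_sqrt_of_sq_le (by norm_num)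
    unfold tc
    linarith
  have key : ∀ a b : ℝ, 1 / 4 ≤ a → 1 / 4 ≤ b → Real.log (a / b) ≤ 4 * |a - b| := fun a b ha hb => by
    have hb0 : 0 < b := by linarith
    refine (Real.log_le_sub_one_of_pos (div_pos (by linarith) hb0)).trans ?_
    rw [div_sub_one hb0.ne', div_le_iff₀ hb0]
    nlinarith [le_abs_self (a - b), abs_nonneg (a - b)]
  have h3 := key tc x h2 h1
  have h4 := key x tc h1 h2
  rw [abs_sub_comm] at h3
  rw [← inv_div, Real.log_inv] at h4
  exact abs_le.2 ⟨by linarith, h3⟩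

open Classical in
/-- The edge part of the correction. -/
noncomputable def c1 (R : Reg M) (q : Par) : Cor M := fun X n =>
  ∑ e ∈ univ.filter (fun e : Tor M × Fin 2 =>
    ¬ (e.1 ∈ R.In ∧ oth e ∈ R.In) ∧ X = {e.1, e.1 + uv M e.2}),
      if n e then Real.log (tc / q.x) else 0

open Classical in
/-- The dropped terms. -/
noncomputable def c2 (R : Reg M) (q : Par) : Cor M := fun X n =>
  -∑ y : Tor M, ∑ B ∈ (potSets q.R).filter (fun B =>
    (geo0 M).put y (hull B) = X ∧ ¬ (geo0 M).put y B ⊆ R.In),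
      q.μ * q.V B / B.card * spinFn B ((geo0 M).see y n)

theorem cor_eq {R : Reg M} (h : R.fr = true) (q : Par) : R.cor q = c1 R q + c2 R q := by
  funext X n
  rw [Reg.cor, if_pos h, sub_eq_add_neg]
  rfl

theorem cor_plus {R : Reg M} (h : ¬ R.fr = true) (q : Par) : R.cor q = 0 := by
  funext X n
  rw [Reg.cor, if_neg h]
  rfl

theorem c1_le (R : Reg M) {q : Par} (hq : 1 / 4 ≤ q.x) {η : ℝ} (h : |q.x - tc| ≤ η) :
    (c1 R q).Le 1 (72 * η) := by
  classical
  have h0 := abs_log_le hq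
  have hd : ∀ (e : Tor M × Fin 2), ∀ x ∈ ({e.1, e.1 + uv M e.2} : Finset (Tor M)),
      tdist x e.1 ≤ 1 ∧ tdist x (e.1 + uv M e.2) ≤ 1 := fun e x hx => by
    have h1 := tdist_uv e.1 e.2
    rcases mem_insert.1 hx with rfl | hx
    · rw [tdist_self, tdist_comm]
      omega
    · rw [mem_singleton.1 hx, tdist_self]
      omega
  refine le_terms univ (fun e : Tor M × Fin 2 => ¬ (e.1 ∈ R.In ∧ oth e ∈ R.In))
    (fun e => {e.1, e.1 + uv M e.2}) (fun _ => 4 * η)
    (fun e n => if n e then Real.log (tc / q.x) else 0) (fun e _ n => ?_)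
    (fun e _ x hx y hy => ?_) (fun x => ?_) fun X n => ?_
  · have := abs_nonneg (q.x - tc)
    split_ifs
    · linarith
    · rw [abs_zero]
      linarith
  · rcases mem_insert.1 hy with rfl | hy
    · exact (hd e x hx).1
    · rw [mem_singleton.1 hy]
      exact (hd e x hx).2
  · have h1 : (univ.filter fun e : Tor M × Fin 2 =>
        x ∈ ({e.1, e.1 + uv M e.2} : Finset (Tor M))).card ≤ (ball x 1 ×ˢ (univ : Finset (Fin 2))).card :=
      card_le_card fun e he => mem_product.2 ⟨G.mem_ball.2 (by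
        rw [tdist_comm]
        exact (hd e x (mem_filter.1 he).2).1), mem_univ _⟩
    have h2 := card_ball_le x 1
    rw [card_product, card_univ, Fintype.card_fin] at h1
    have h3 : ((univ.filter fun e : Tor M × Fin 2 =>
        x ∈ ({e.1, e.1 + uv M e.2} : Finset (Tor M))).card : ℝ) ≤ 18 := by
      exact_mod_cast (by omega : _ ≤ 18)
    rw [sum_const, nsmul_eq_mul]
    have := abs_nonneg (q.x - tc)
    nlinarith
  · refine sum_congr ?_ fun _ _ => rfl
    ext e
    simp only [mem_filter, eq_comm (a := X)]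

theorem c2_le (R : Reg M) {q : Par} {δ : ℝ} (h : q.Small δ) :
    (c2 R q).Le (2 * q.R + 2) ((2 * (q.R + 1) + 1) ^ 2 * δ) := by
  classical
  have hd : ∀ i ∈ (univ : Finset (Tor M)) ×ˢ potSets q.R, ∀ x : Tor M,
      x ∈ (geo0 M).put i.1 (hull i.2) → tdist x i.1 ≤ q.R + 1 := fun i hi x hx =>
    R5.tdist_put (g := geo0 M) (fun v hv => R5.hull_bd (mem_product.1 hi).2 hv) hx
  refine le_terms (M := M) (I := Tor M × Finset (ℤ × ℤ)) (univ ×ˢ potSets q.R) (fun i => ¬ (geo0 M).put i.1 i.2 ⊆ R.In)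
    (fun i => (geo0 M).put i.1 (hull i.2)) (fun i => |q.μ| * |q.V i.2|)
    (fun i n => -(q.μ * q.V i.2 / i.2.card * spinFn i.2 ((geo0 M).see i.1 n))) (fun i hi n => ?_)
    (fun i hi x hx y hy => ?_) (fun x => ?_) fun X n => ?_
  · have h1 : (1 : ℝ) ≤ i.2.card := by
      exact_mod_cast card_pos.2 ⟨_, (mem_filter.1 (mem_product.1 hi).2).2⟩
    rw [abs_neg, abs_mul, abs_div, abs_mul, abs_of_nonneg (by linarith : (0 : ℝ) ≤ i.2.card)]
    exact (mul_le_of_le_one_right (by positivity) (R5.abs_spinFn _ _)).trans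
      (div_le_self (by positivity) h1)
  · have h1 := hd i hi x hx
    have h2 := hd i hi y hy
    have h3 := tdist_triangle x i.1 y
    rw [tdist_comm i.1] at h3
    omega
  · refine (sum_le_sum_of_subset_of_nonneg (t := ball x (q.R + 1) ×ˢ potSets q.R) (fun i hi => ?_)
      fun i _ _ => mul_nonneg (abs_nonneg _) (abs_nonneg _)).trans ?_
    · obtain ⟨h1, h2⟩ := (@mem_filter _ _ (_) _ _).1 hi
      exact mem_product.2 ⟨G.mem_ball.2 ((tdist_comm _ _).trans_le (hd i h1 x h2)),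
        (mem_product.1 h1).2⟩
    rw [sum_product]
    dsimp only
    rw [sum_const, nsmul_eq_mul, ← mul_sum]
    have h2 : ((ball x (q.R + 1)).card : ℝ) ≤ (2 * (q.R + 1) + 1) ^ 2 := by
      exact_mod_cast card_ball_le x (q.R + 1)
    exact mul_le_mul h2 h (by positivity) (by positivity)
  · rw [sum_neg_distrib, sum_filter, sum_product]
    unfold c2
    congr 1
    refine sum_congr rfl fun y _ => ?_
    rw [sum_filter]
    exact sum_congr rfl fun B _ => @if_congr _ _ _ (_) (_) _ _ _ _ and_comm rfl rfl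

theorem c1_ok (R : Reg M) (q : Par) : (c1 R q).Ok := by
  refine ⟨fun n => sum_eq_zero fun e he => ?_, fun X n n' h => sum_congr rfl fun e he => ?_⟩
  · exact absurd (mem_filter.1 he).2.2.symm (insert_ne_empty _ _)
  · obtain rfl := (mem_filter.1 he).2.2
    rw [h e (mem_insert_self _ _) (mem_insert_of_mem (mem_singleton_self _))]

theorem c2_ok (R : Reg M) (q : Par) : (c2 R q).Ok := by
  refine ⟨fun n => neg_eq_zero.2 (sum_eq_zero fun y _ => sum_eq_zero fun B hB => ?_),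
    fun X n n' h => congrArg Neg.neg (sum_congr rfl fun y _ => sum_congr rfl fun B hB => ?_)⟩
  · obtain ⟨h1, h2, -⟩ := (@mem_filter _ _ (_) _ _).1 hB
    exact absurd (h2 ▸ R5.self_mem_put (g := geo0 M) y (R5.zero_mem_hull h1)) (notMem_empty y)
  · obtain ⟨-, rfl, -⟩ := (@mem_filter _ _ (_) _ _).1 hB
    rw [R5.spinFn_congr (R5.see_congr (g := geo0 M) (y := y) (n := n) (n' := n') fun e he =>
      h e (R5.mem_edg.1 he).1 (R5.mem_edg.1 he).2)]

theorem c1_off {R : Reg M} (hf : R.fr = true) (q : Par) : (c1 R q).Off R.pw := fun X hX n =>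
  sum_eq_zero fun e he => by
    obtain ⟨-, h1, rfl⟩ := mem_filter.1 he
    exact absurd (in_of_flux hf (hX _ (mem_insert_self _ _)) e.2) h1

theorem c2_off {R : Reg M} (hf : R.fr = true) (q : Par) : (c2 R q).Off R.pw := fun X hX n =>
  neg_eq_zero.2 (sum_eq_zero fun y _ => sum_eq_zero fun B hB => by
    obtain ⟨-, rfl, h1⟩ := (@mem_filter _ _ (_) _ _).1 hB
    refine absurd (fun x hx => ?_) h1
    obtain ⟨b, hb, rfl⟩ := mem_image.1 hx
    exact (in_of_flux hf (hX _ (mem_image_of_mem _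
      (R5.mem_hull hb hb (by simp) (by simp) (by simp) (by simp)))) 0).1)

end DC

theorem Reg.cor_par0 (R : Reg M) : R.cor par0 = 0 := by
  have h : tc ≠ 0 := fun h => by simpa [h] using tc_mul_tT
  funext X n
  simp [Reg.cor, par0, h]

/-- The correction of a region is admissible. -/
theorem cor_reg : ∃ C₂ : ℝ, 1 ≤ C₂ ∧ ∀ r : ℕ, ∃ C₃ : ℝ, 1 ≤ C₃ ∧ ∀ (M : ℕ) [NeZero M]
    (R : Reg M) (q : Par) (η δ : ℝ), q.R = r → q.Ok → |q.x - tc| ≤ η → q.Small δ →
      (R.cor q).Ok ∧ (R.cor q).Off R.pw ∧ (R.cor q).Sm q.R (C₂ * η) (C₃ * δ) := by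
  refine ⟨72, by norm_num, fun r => ⟨(2 * (r + 1) + 1) ^ 2,
    one_le_pow₀ (by linarith [Nat.cast_nonneg (α := ℝ) r]), ?_⟩⟩
  rintro M _ R q η δ rfl hq hx hs
  by_cases hf : R.fr = true
  · rw [DC.cor_eq hf]
    refine ⟨⟨fun n => ?_, fun X n n' h => ?_⟩, fun X hX n => ?_,
      _, _, rfl, DC.c1_le R hq.x_lo hx, DC.c2_le R hs⟩
    · rw [Pi.add_apply, Pi.add_apply, (DC.c1_ok R q).empty, (DC.c2_ok R q).empty, add_zero]
    · simp only [Pi.add_apply, (DC.c1_ok R q).dep X n n' h, (DC.c2_ok R q).dep X n n' h]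
    · rw [Pi.add_apply, Pi.add_apply, DC.c1_off hf q X hX, DC.c2_off hf q X hX, add_zero]
  · have h1 : 0 ≤ η := (abs_nonneg _).trans hx
    have h2 : 0 ≤ δ := le_trans (by positivity) hs
    rw [DC.cor_plus hf]
    exact ⟨Cor.ok_zero M, fun _ _ _ => rfl, 0, 0, (add_zero _).symm, DC.le_zero _ (by positivity),
      DC.le_zero _ (by positivity)⟩

end Vale.Agent.P144Z
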