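import Vale.Agent.P144D.Defs
import Vale.Agent.P144D.C.Basic
import Vale.Agent.P144Z.H3.Main

/-!
The strings of spins and holes.
-/

namespace Vale.Agent.P144Z

open Finset Matrix

set_option linter.unusedSectionVars false

variable {M : ℕ} [NeZero M]

namespace DC

/-- The sign of a site with respect to a face. -/
def sg (f : Tor M) (u : ℤ × ℤ) : ℝ := if prj M u = f then -1 else 1

theorem flux_strG (a b : ℤ × ℤ) (f : Tor M) : flux (strG M a b) f = sg f a * sg f b := by
  rw [H3.flux_eq (strG_sign a b), I1.wt_strG_dom]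
  congr 1 <;> simp [sg, P144.sp]

theorem flux_prod {ι : Type} (s : Finset ι) (A : ι → Gauge M) (f : Tor M) :
    flux (∏ i ∈ s, A i) f = ∏ i ∈ s, flux (A i) f := by
  simp only [flux, Finset.prod_apply, prod_mul_distrib]

theorem strG_out {a b : ℤ × ℤ} {R : ℕ} (ha : zd a 0 ≤ R) (hb : zd b 0 ≤ R) {e : Tor M × Fin 2}
    (he : R + 1 < tdist e.1 0) : strG M a b e = 1 := by
  unfold zd at ha hb
  simp only [Prod.fst_zero, Prod.snd_zero, sub_zero, max_le_iff] at ha hb
  unfold strG
  rw [Finset.prod_eq_one, Finset.prod_eq_one, one_mul]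
  · intro i hi
    rw [if_neg]
    rintro rfl
    have h := he.trans_le (H3.tdist_prj_zero (M := M) ((b.1, i) + uz 1))
    simp only [zd, uz, mem_Ico] at h hi
    simp at h
    omega
  · intro i hi
    rw [if_neg]
    rintro rfl
    have h := he.trans_le (H3.tdist_prj_zero (M := M) ((i, a.2) + uz 0))
    simp only [zd, uz, mem_Ico] at h hi
    simp at h
    omega

theorem zd_self (u : ℤ × ℤ) : zd u u = 0 := by simp [zd]

theorem zd_comm (u v : ℤ × ℤ) : zd u v = zd v u := by
  unfold zd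
  omega

variable {Λ : Finset (ℤ × ℤ)} {T r : ℕ}

/-- The faces near a deep inner point are inner. -/
theorem mem_in {u : ℤ × ℤ} (h : ∀ v, zd v u ≤ r → v ∈ Λ) {f : Tor M}
    (hf : tdist f (prj M u) ≤ r) : f ∈ Λ.image (prj M) := by
  refine mem_image.2 ⟨u + lft (f - prj M u), h _ ?_, by rw [G.prj_add, G.add_prj_lft]⟩
  rw [G.tdist_def] at hf
  simpa [zd] using hf

/-- The faces near a deep outer point are outer. -/
theorem not_in {u : ℤ × ℤ} (hb : ∀ v ∈ Λ, zd v 0 ≤ T) (hu : zd u 0 ≤ T) (hM : 4 * T < M)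
    (h : ∀ v, zd v u ≤ r → v ∉ Λ) {f : Tor M} (hf : tdist f (prj M u) ≤ r) :
    f ∉ Λ.image (prj M) := fun h1 => by
  obtain ⟨v, hv, rfl⟩ := mem_image.1 h1
  rw [H3.tdist_prj (hb v hv) hu hM] at hf
  exact h v hf hv

theorem pw_one {u : ℤ × ℤ} (h : ∀ v, zd v u ≤ r → v ∈ Λ) (fr : Bool) (e : Tor M × Fin 2)
    (he : tdist e.1 (prj M u) + 1 ≤ r) : (regOf M Λ fr).pw e = 1 := by
  have h1 : e.1 ∈ (regOf M Λ fr).In := mem_in h (by omega)
  have h2 : oth e ∈ (regOf M Λ fr).In := mem_in h ((near_oth e _).trans he)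
  simp [Reg.pw, h1, h2]

theorem pw_zero {u : ℤ × ℤ} (hb : ∀ v ∈ Λ, zd v 0 ≤ T) (hu : zd u 0 ≤ T) (hM : 4 * T < M)
    (h : ∀ v, zd v u ≤ r → v ∉ Λ) (e : Tor M × Fin 2) (he : tdist e.1 (prj M u) + 1 ≤ r) :
    (regOf M Λ false).pw e = 0 := by
  have h1 : e.1 ∉ (regOf M Λ false).In := not_in hb hu hM h (by omega)
  have h2 : oth e ∉ (regOf M Λ false).In := not_in hb hu hM h ((near_oth e _).trans he)
  rw [Reg.pw, if_neg (by simp [regOf]), if_neg (by simp [h1, h2])]

variable {n H : ℕ} {x : Fin n → ℤ × ℤ} {a : ℤ × ℤ} {hs : Fin H → ℤ × ℤ} {S : Finset (Fin H)}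

theorem sign_G : IsSign (spinG M a x * holeG M a hs S) :=
  H3.sign_mul (spinG_sign a x) (H3.sign_prod _ fun i => strG_sign a (hs i))

theorem flux_G (f : Tor M) : flux (spinG M a x * holeG M a hs S) f =
    (sg f a ^ n * ∏ i, sg f (x i)) * ∏ i ∈ S, sg f a * sg f (hs i) := by
  rw [flux_mul, spinG, holeG, flux_prod, flux_prod]
  simp only [flux_strG]
  rw [prod_mul_distrib, prod_const, card_univ, Fintype.card_fin]

/-- The fluxes sit at the ends of the strings. -/
theorem ends {f : Tor M} (h : flux (spinG M a x * holeG M a hs S) f = -1) :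
    (∃ i, f = prj M (x i)) ∨ f = prj M a ∨ ∃ i, f = prj M (hs i) := by
  by_contra h'
  simp only [not_or, not_exists, eq_comm (a := f)] at h'
  rw [flux_G] at h
  simp only [sg, h'.1, h'.2.1, h'.2.2, if_false, one_pow, prod_const_one, mul_one] at h
  norm_num at h

theorem ends_free (hH : H = 0) (hn : Even n) {f : Tor M}
    (h : flux (spinG M a x * holeG M a hs S) f = -1) : ∃ i, f = prj M (x i) := by
  subst hH
  by_contra h'
  simp only [not_exists, eq_comm (a := f)] at h'
  have h1 : sg f a ^ n = 1 := by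
    unfold sg
    split_ifs
    · exact hn.neg_one_pow
    · exact one_pow n
  rw [flux_G, h1, Subsingleton.elim S ∅, prod_empty] at h
  simp only [sg, h', if_false, prod_const_one, mul_one] at h
  norm_num at h

/-- An inner point is far from the outer points. -/
theorem far_out (h1 : Holes Λ T r a hs) (hM : 4 * T < M) {u : ℤ × ℤ} (hu : u ∈ Λ) {f : Tor M}
    (hf : f = prj M a ∨ ∃ i, f = prj M (hs i)) : r < tdist (prj M u) f := by
  by_contra h
  rcases hf with rfl | ⟨i, rfl⟩
  · exact not_in h1.box h1.a_le hM h1.a_out (not_lt.1 h) (mem_image_of_mem _ hu)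
  · exact not_in h1.box (h1.h_le i) hM (h1.h_out i) (not_lt.1 h) (mem_image_of_mem _ hu)

theorem spin_mem {ι : Type} {y : ι → ℤ × ℤ} (h2 : Spins Λ r y) (i : ι) : y i ∈ Λ :=
  h2.ins i _ (by rw [zd_self]; exact Nat.zero_le r)

theorem far_in (h1 : Holes Λ T r a hs) (hM : 4 * T < M) {ι : Type} {y : ι → ℤ × ℤ}
    (h2 : Spins Λ r y) {i j : ι} (h : i ≠ j) : r < tdist (prj M (y i)) (prj M (y j)) := by
  rw [H3.tdist_prj (h1.box _ (spin_mem h2 i)) (h1.box _ (spin_mem h2 j)) hM]
  exact h2.sep i j h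

theorem flux_spin (h1 : Holes Λ T r a hs) (hM : 4 * T < M) (h2 : Spins Λ r x) (i : Fin n) :
    flux (spinG M a x * holeG M a hs S) (prj M (x i)) = -1 := by
  have k : ∀ {u : ℤ × ℤ}, r < tdist (prj M (x i)) (prj M u) → sg (prj M (x i)) u = 1 :=
    fun h => if_neg fun e => by
      rw [e, tdist_self] at h
      omega
  have ka := k (far_out h1 hM (spin_mem h2 i) (Or.inl rfl))
  rw [flux_G, ka, prod_eq_single i (fun j _ hj => k (far_in h1 hM h2 hj.symm)) (by simp),
    prod_eq_one fun j _ => by rw [k (far_out h1 hM (spin_mem h2 i) (Or.inr ⟨j, rfl⟩)), mul_one]]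
  simp [sg]

theorem sep_G (h1 : Holes Λ T r a hs) (hM : 4 * T < M) (h2 : Spins Λ r x) {f f' : Tor M}
    (hf : flux (spinG M a x * holeG M a hs S) f = -1)
    (hf' : flux (spinG M a x * holeG M a hs S) f' = -1) (h : f ≠ f') : r < tdist f f' := by
  have k : ∀ i, r < tdist (prj M a) (prj M (hs i)) := fun i => by
    rw [H3.tdist_prj h1.a_le (h1.h_le i) hM]
    exact h1.ah i
  rcases ends hf with ⟨i, rfl⟩ | e <;> rcases ends hf' with ⟨j, rfl⟩ | e'
  · exact far_in h1 hM h2 fun e => h (by rw [e])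
  · exact far_out h1 hM (spin_mem h2 i) e'
  · rw [tdist_comm]
    exact far_out h1 hM (spin_mem h2 j) e
  · rcases e with rfl | ⟨i, rfl⟩ <;> rcases e' with rfl | ⟨j, rfl⟩
    · exact absurd rfl h
    · exact k j
    · rw [tdist_comm]
      exact k i
    · rw [H3.tdist_prj (h1.h_le i) (h1.h_le j) hM]
      exact h1.hh i j fun e => h (by rw [e])

/-- In the plus case the outer ends lie in the removed part. -/
theorem ends_cases {fr : Bool} (h1 : Holes Λ T r a hs) (hM : 4 * T < M)
    (hfr : fr = true → H = 0 ∧ Even n) {f : Tor M}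
    (hf : flux (spinG M a x * holeG M a hs S) f = -1) :
    (∃ i, f = prj M (x i)) ∨ ∀ e, tdist e.1 f + 1 ≤ r → (regOf M Λ fr).pw e = 0 := by
  cases fr
  · rcases ends hf with h | rfl | ⟨i, rfl⟩
    · exact Or.inl h
    · exact Or.inr (pw_zero h1.box h1.a_le hM h1.a_out)
    · exact Or.inr (pw_zero h1.box (h1.h_le i) hM (h1.h_out i))
  · exact Or.inl (ends_free (hfr rfl).1 (hfr rfl).2 hf)

theorem flux_A {fr : Bool} (h1 : Holes Λ T r a hs) (hM : 4 * T < M) (h2 : Spins Λ r x)
    (hfr : fr = true → H = 0 ∧ Even n) (hr : 2 ≤ r) (f : Tor M) :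
    flux ((regOf M Λ fr).pw * (spinG M a x * holeG M a hs S)) f = -1 ↔ ∃ i, f = prj M (x i) := by
  rw [flux_mul]
  constructor
  · intro h
    have h3 := flux_nonneg (regOf M Λ fr).isP f
    rcases flux_sign (sign_G (M := M) (x := x) (a := a) (hs := hs) (S := S)) f with h4 | h4
    · rw [h4] at h
      linarith
    · refine (ends_cases h1 hM hfr h4).resolve_right fun h5 => ?_
      rw [flux, h5 (f, 0) (by rw [tdist_self]; omega)] at h
      simp at h
  · rintro ⟨i, rfl⟩
    rw [flux_spin h1 hM h2, flux_one (z := prj M (x i)) (r := 0)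
      (fun e he => pw_one (h2.ins i) fr e (by omega)) (tdist_self _).le, one_mul]

end DC

/-- The strings of spins and holes. -/
theorem str_reg {Λ : Finset (ℤ × ℤ)} {fr : Bool} {T r n H : ℕ} {x : Fin n → ℤ × ℤ} {a : ℤ × ℤ}
    {hs : Fin H → ℤ × ℤ} (S : Finset (Fin H)) (h1 : Holes Λ T r a hs) (h2 : Spins Λ r x)
    (hfr : fr = true → H = 0 ∧ Even n) (hr : 2 ≤ r) (hM : 4 * (T + r) ≤ M) :
    Str (regOf M Λ fr).pw (spinG M a x * holeG M a hs S) (r - 1) ∧
      (∀ e, T + 1 < tdist e.1 0 → (spinG M a x * holeG M a hs S) e = 1) ∧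
      (∀ f, flux ((regOf M Λ fr).pw * (spinG M a x * holeG M a hs S)) f = -1 ↔
        ∃ i, f = prj M (x i)) ∧
      (fr = true → ∀ f, flux (spinG M a x * holeG M a hs S) f = -1 ↔ ∃ i, f = prj M (x i)) ∧
      (univ.filter fun f => flux (spinG M a x * holeG M a hs S) f = -1).card ≤ n + H + 1 ∧
      (univ.filter fun f =>
        flux ((regOf M Λ fr).pw * (spinG M a x * holeG M a hs S)) f = -1).card = n := by
  have hM' : 4 * T < M := by omega
  refine ⟨⟨DC.sign_G, fun f hf => ?_, fun f f' hf hf' h => ?_⟩, fun e he => ?_,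
    DC.flux_A h1 hM' h2 hfr hr, fun h f => ⟨DC.ends_free (hfr h).1 (hfr h).2, ?_⟩, ?_, ?_⟩
  · rcases DC.ends_cases h1 hM' hfr hf with ⟨i, rfl⟩ | h
    · exact Or.inl fun e he => DC.pw_one (h2.ins i) fr e (by omega)
    · exact Or.inr fun e he => h e (by omega)
  · have := DC.sep_G h1 hM' h2 hf hf' h
    omega
  · rw [Pi.mul_apply, spinG, holeG, Finset.prod_apply, Finset.prod_apply,
      prod_eq_one fun i _ => DC.strG_out h1.a_le (h1.box _ (DC.spin_mem h2 i)) he,
      prod_eq_one fun i _ => DC.strG_out h1.a_le (h1.h_le i) he, mul_one]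
  · rintro ⟨i, rfl⟩
    exact DC.flux_spin h1 hM' h2 i
  · have h3 : (univ.filter fun f => flux (spinG M a x * holeG M a hs S) f = -1) ⊆
        insert (prj M a) ((univ.image fun i => prj M (x i)) ∪ univ.image fun i => prj M (hs i)) :=
      fun f hf => by
        rcases DC.ends (mem_filter.1 hf).2 with ⟨i, rfl⟩ | rfl | ⟨i, rfl⟩
        · exact mem_insert_of_mem (mem_union_left _ (mem_image_of_mem _ (mem_univ i)))
        · exact mem_insert_self _ _
        · exact mem_insert_of_mem (mem_union_right _ (mem_image_of_mem _ (mem_univ i)))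
    refine (card_le_card h3).trans ((card_insert_le _ _).trans (Nat.succ_le_succ
      ((card_union_le _ _).trans (add_le_add (card_image_le.trans ?_) (card_image_le.trans ?_))))) <;>
      simp
  · have h3 : (univ.filter fun f =>
        flux ((regOf M Λ fr).pw * (spinG M a x * holeG M a hs S)) f = -1) =
        univ.image fun i => prj M (x i) := by
      ext f
      simp only [mem_filter, mem_univ, true_and, mem_image, DC.flux_A h1 hM' h2 hfr hr,
        eq_comm (a := f)]
    rw [h3, card_image_of_injective, card_univ, Fintype.card_fin]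
    intro i j e
    by_contra h
    have h4 := DC.far_in h1 hM' h2 h
    rw [show prj M (x i) = prj M (x j) from e, tdist_self] at h4
    omega

/-- The separation of the fluxes and of the sources. -/
theorem sepW_reg {Λ : Finset (ℤ × ℤ)} {fr : Bool} {T r n H : ℕ} {x : Fin n → ℤ × ℤ} {ι : Type}
    [Fintype ι] [DecidableEq ι] {y : ι → ℤ × ℤ} {a : ℤ × ℤ} {hs : Fin H → ℤ × ℤ}
    (S : Finset (Fin H)) (j : ι → Fin 2) (J : ℕ) (h1 : Holes Λ T r a hs) (h2 : Spins Λ r (Sum.elim x y))
    (hfr : fr = true → H = 0 ∧ Even n) (hr : 4 ≤ r) (hM : 4 * (T + r) ≤ M) :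
    (geoD M ((regOf M Λ fr).pw * (spinG M a x * holeG M a hs S))
      (fun k => prj M (dualE (y k) (j k)).1) (fun k => (dualE (y k) (j k)).2) J).SepW (r - 3) := by
  have hM' : 4 * T < M := by omega
  have hx : Spins Λ r x := ⟨fun i => h2.ins (Sum.inl i), fun i i' h =>
    h2.sep (Sum.inl i) (Sum.inl i') fun e => h (Sum.inl_injective e)⟩
  have hd : ∀ k, tdist (prj M (dualE (y k) (j k)).1) (prj M (y k)) ≤ 1 := fun k => by
    have e : prj M (uz (j k)) = uv M (j k) := by
      generalize j k = i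
      fin_cases i <;> simp [uv, prj, uz]
    rw [dualE, G.prj_add, e]
    exact tdist_uv _ _
  have key : ∀ (t : Fin n ⊕ ι) (f : Tor M), tdist f (prj M (Sum.elim x y t)) ≤ r - 2 →
      (∀ i, f = prj M (x i) → t ≠ Sum.inl i) →
      flux ((regOf M Λ fr).pw * (spinG M a x * holeG M a hs S)) f = 1 := fun t f hf h => by
    rw [flux_mul, DC.flux_one (fun e he => DC.pw_one (h2.ins t) fr e (by omega)) hf, one_mul]
    refine (DC.flux_sign DC.sign_G f).resolve_right fun h3 => ?_
    rw [tdist_comm] at hf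
    rcases DC.ends h3 with ⟨i, e⟩ | e
    · have h4 : r < tdist _ (prj M (x i)) := DC.far_in h1 hM' h2 (h i e)
      rw [← e] at h4
      omega
    · have h4 := DC.far_out h1 hM' (DC.spin_mem h2 t) e
      omega
  refine ⟨fun f hf f' h hf' => ?_, fun k f hf => ?_, fun k k' h => ?_⟩
  · obtain ⟨i, rfl⟩ := (DC.flux_A h1 hM' hx hfr (by omega) f).1 hf
    refine key (Sum.inl i) f' (hf'.trans (by omega)) fun i' e e' => h ?_
    rw [e, Sum.inl_injective e']
  · refine key (Sum.inr k) f ?_ fun _ _ => Sum.inr_ne_inl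
    have h3 := tdist_triangle (M := M) f (prj M (dualE (y k) (j k)).1) (prj M (y k))
    have h4 : tdist (M := M) f (prj M (dualE (y k) (j k)).1) ≤ r - 3 := hf
    have h5 := hd k
    change tdist (M := M) f (prj M (y k)) ≤ r - 2
    omega
  · have h3 : r < tdist (prj M (y k)) (prj M (y k')) :=
      DC.far_in h1 hM' h2 (i := Sum.inr k) (j := Sum.inr k') fun e => h (Sum.inr_injective e)
    have h4 := tdist_triangle (prj M (y k)) (prj M (dualE (y k) (j k)).1) (prj M (y k'))
    have h5 := tdist_triangle (prj M (dualE (y k) (j k)).1) (prj M (dualE (y k') (j k')).1)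
      (prj M (y k'))
    have h6 := hd k
    have h7 := hd k'
    rw [tdist_comm] at h6
    change r - 3 < tdist (prj M (dualE (y k) (j k)).1) (prj M (dualE (y k') (j k')).1)
    omega

end Vale.Agent.P144Z
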