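import Vale.Agent.P144D.C.Basic
import Vale.Agent.P144D.C.Cor
import Vale.Agent.P144D.C.Str

/-!
Block C: weights, strings and corrections of a region.
-/
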